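import Crest.Agent.N255.Mo.Re

/-!
# Row 255 (helper2): simplicial collapses; compact pieces of `Re P` are null-homotopic
-/

set_option autoImplicit false
open Set Function Topology unitInterval

noncomputable section

namespace Crest.Agent.N255.Mo

variable {P : Type} [PartialOrder P] {K K' : Set P → Prop}

theorem cont_val : Continuous fun μ : Re P => μ.1 := continuous_subtype_val

theorem cont_ev (a : P) : Continuous fun μ : Re P => μ.1 a := (continuous_apply a).comp cont_val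

/-- subcomplex -/
def Rz (K : Set P → Prop) : Set (Re P) := {μ | K (support μ.1)}

/-- the subcomplex contracts in `Re P` -/
def Nul (K : Set P → Prop) : Prop :=
  ContinuousMap.Nullhomotopic (⟨Subtype.val, continuous_subtype_val⟩ : C(Rz K, Re P))

/-- closed under subsets, consisting of chains -/
structure Cx (K : Set P → Prop) : Prop where
  down : ∀ ζ ζ', ζ' ⊆ ζ → K ζ → K ζ'
  chain : ∀ ζ, K ζ → IsChain (· ≤ ·) ζ

theorem Cx.and (h : Cx K) {Q : Set P → Prop} (hQ : ∀ ζ ζ', ζ' ⊆ ζ → Q ζ → Q ζ') :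
    Cx fun ζ => K ζ ∧ Q ζ :=
  ⟨fun ζ ζ' a b => ⟨h.down ζ ζ' a b.1, hQ ζ ζ' a b.2⟩, fun ζ a => h.chain ζ a.1⟩

theorem Nul.mono (h : Nul K') (hK : ∀ ζ, K ζ → K' ζ) : Nul K :=
  h.comp_left (⟨inclusion fun _ hμ => hK _ hμ, continuous_inclusion _⟩ : C(Rz K, Rz K'))

open Classical in
/-- mass is moved from `x` and `c` to `v` -/
def mv (x c v : P) (μ : P → ℝ) (t : ℝ) : P → ℝ := fun a =>
  μ a + t * min (μ x) (μ c) * ((if a = v then (if x = c then 1 else 2) else 0) -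
    if a = x ∨ a = c then 1 else 0)

omit [PartialOrder P] in
theorem cont_mv (x c v : P) : Continuous fun z : (P → ℝ) × ℝ => mv x c v z.1 z.2 :=
  continuous_pi fun a => by unfold mv; fun_prop

theorem mv_mem (hK : Cx K) {x c v : P} (hx : v ≠ x) (hc : v ≠ c)
    (h : ∀ ζ, K ζ → x ∈ ζ → c ∈ ζ → K (insert v ζ)) (μ : Rz K) (t : I) :
    ((∀ a, 0 ≤ mv x c v μ.1.1 t a) ∧ (support (mv x c v μ.1.1 t)).Finite ∧
      ∑ᶠ a, mv x c v μ.1.1 t a = 1 ∧ IsChain (· ≤ ·) (support (mv x c v μ.1.1 t))) ∧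
      K (support (mv x c v μ.1.1 t)) := by
  classical
  obtain ⟨⟨μ, h1, h2, h3, h4⟩, h5⟩ := μ
  have hm : 0 ≤ min (μ x) (μ c) := le_min (h1 x) (h1 c)
  have ht := mul_nonneg t.2.1 hm
  have ht' : t * min (μ x) (μ c) ≤ min (μ x) (μ c) := mul_le_of_le_one_left hm t.2.2
  have h6 : K (support (mv x c v μ t)) ∧ (support (mv x c v μ t)).Finite := by
    rcases hm.eq_or_lt with h0 | h0
    · rw [show mv x c v μ t = μ by ext a; simp [mv, ← h0]]; exact ⟨h5, h2⟩
    · have hx' : x ∈ support μ := (h0.trans_le (min_le_left _ _)).ne'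
      have hc' : c ∈ support μ := (h0.trans_le (min_le_right _ _)).ne'
      have : support (mv x c v μ t) ⊆ insert v (support μ) := fun a ha => by
        by_contra hn
        simp only [mem_insert_iff, not_or, mem_support, not_not] at hn
        have h7 : ¬ (a = x ∨ a = c) := by
          rintro (rfl | rfl)
          exacts [hx' hn.2, hc' hn.2]
        exact ha (by simp [mv, hn.1, hn.2, h7])
      exact ⟨hK.down _ _ this (h _ h5 hx' hc'), (h2.insert v).subset this⟩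
  refine ⟨⟨fun a => ?_, h6.2, ?_, hK.chain _ h6.1⟩, h6.1⟩
  · have := min_le_left (μ x) (μ c)
    have := min_le_right (μ x) (μ c)
    have := h1 a
    simp only [mv]
    by_cases e : a = x ∨ a = c
    · have e' : a ≠ v := by rintro rfl; exact e.elim hx hc
      rw [if_neg e', if_pos e]
      rcases e with rfl | rfl <;> linarith
    · rw [if_neg e]
      split_ifs <;> linarith
  · set S := insert v (insert x (insert c h2.toFinset))
    have e1 : ∀ f : P → ℝ, (∀ a, a ∉ S → f a = 0) → ∑ᶠ a, f a = ∑ a ∈ S, f a := fun f hf =>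
      finsum_eq_sum_of_support_subset f fun a ha => by_contra fun hn => ha (hf a hn)
    rw [e1 μ fun a ha => by simp [S] at ha; exact ha.2.2.2] at h3
    rw [e1 _ fun a ha => by simp [S] at ha; simp [mv, ha]]
    simp only [mv]
    rw [Finset.sum_add_distrib, h3, ← Finset.mul_sum, Finset.sum_sub_distrib, Finset.sum_ite_eq',
      if_pos (by simp [S])]
    by_cases e : x = c
    · subst e; simp [S]
    · have : ∀ a, (if a = x ∨ a = c then (1 : ℝ) else 0) =
          (if a = x then 1 else 0) + if a = c then 1 else 0 := fun a => by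
        by_cases a1 : a = x <;> by_cases a2 : a = c <;> simp_all
      simp only [this, Finset.sum_add_distrib, Finset.sum_ite_eq', if_neg e]
      simp [S]; norm_num

/-- the basic collapse -/
theorem Nul.move (hK : Cx K) {x c v : P} (hx : v ≠ x) (hc : v ≠ c)
    (h : ∀ ζ, K ζ → x ∈ ζ → c ∈ ζ → K (insert v ζ))
    (hN : Nul fun ζ => K ζ ∧ ¬ (x ∈ ζ ∧ c ∈ ζ)) : Nul K := by
  classical
  have hm := mv_mem hK hx hc h
  let H : C(I × Rz K, Re P) := ⟨fun z => ⟨mv x c v z.2.1.1 z.1, (hm z.2 z.1).1⟩,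
    Continuous.subtype_mk ((cont_mv x c v).comp
      (((cont_val.comp continuous_subtype_val).comp continuous_snd).prodMk
        (continuous_subtype_val.comp continuous_fst))) _⟩
  have h1 : ∀ μ : Rz K, H (1, μ) ∈ Rz fun ζ => K ζ ∧ ¬ (x ∈ ζ ∧ c ∈ ζ) := fun μ => by
    refine ⟨(hm μ 1).2, fun ⟨a, b⟩ => ?_⟩
    rcases min_cases (μ.1.1 x) (μ.1.1 c) with e | e
    · exact a (show mv x c v μ.1.1 (1 : I) x = 0 by simp [mv, hx.symm, e.1])
    · exact b (show mv x c v μ.1.1 (1 : I) c = 0 by simp [mv, hc.symm, e.1])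
  obtain ⟨y, hy⟩ := hN.comp_left
    ⟨fun μ => ⟨H (1, μ), h1 μ⟩, Continuous.subtype_mk (by fun_prop) _⟩
  refine ⟨y, ContinuousMap.Homotopic.trans ⟨⟨H, fun μ => ?_, fun μ => rfl⟩⟩ hy⟩
  exact Subtype.ext (funext fun a => show mv x c v μ.1.1 (0 : I) a = μ.1.1 a by simp [mv])

theorem Nul.verts (hK : Cx K) {v : P} {R : Set P} (hR : R.Finite) (hv : v ∉ R)
    (h : ∀ ζ, K ζ → ∀ a ∈ R, a ∈ ζ → K (insert v ζ)) (hN : Nul fun ζ => K ζ ∧ Disjoint ζ R) :
    Nul K := by
  induction R, hR using Set.Finite.induction_on with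
  | empty => exact hN.mono fun ζ a => ⟨a, disjoint_empty ζ⟩
  | @insert a R _ _ ih =>
    rw [mem_insert_iff, not_or] at hv
    refine ih hv.2 (fun ζ b c d => h ζ b c (mem_insert_of_mem _ d)) (Nul.move (x := a) (c := a)
      (hK.and fun ζ ζ' a b => b.mono_left a) hv.1 hv.1 (fun ζ b c _ =>
        ⟨h ζ b.1 a (mem_insert _ _) c, disjoint_insert_left.2 ⟨hv.2, b.2⟩⟩) (hN.mono fun ζ b =>
        ⟨b.1.1, disjoint_insert_right.2 ⟨fun c => b.2 ⟨c, c⟩, b.1.2⟩⟩))

/-- chains in `S` -/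
def Ch (S ζ : Set P) : Prop := ζ ⊆ S ∧ IsChain (· ≤ ·) ζ

theorem cx_Ch (S : Set P) : Cx (Ch S) :=
  ⟨fun _ _ a b => ⟨a.trans b.1, b.2.mono a⟩, fun _ a => a.2⟩

theorem Ch.insert {S ζ : Set P} {v : P} (h : Ch S ζ) (hv : v ∈ S) (hc : ∀ a ∈ ζ, v ≤ a ∨ a ≤ v) :
    Ch S (insert v ζ) := ⟨insert_subset hv h.1, h.2.insert fun a ha _ => hc a ha⟩

/-- a maximal element whose faces can be joined with one of them is removed -/
theorem Nul.weak {S : Set P} {D b : P} (hf : (Iic D).Finite) (hmax : ∀ c ∈ S, D ≤ c → c = D)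
    (hb : b ∈ S) (hbD : b < D) (hj : ∀ c ∈ S, c < D → ∃ j ∈ S, IsLUB {c, b} j ∧ j ≠ D)
    (hN : Nul (Ch (S \ {D}))) : Nul (Ch S) := by
  set R := {c | c ∈ S ∧ c < D ∧ ¬ b ≤ c}
  have lt : ∀ ζ, Ch S ζ → D ∈ ζ → ∀ a ∈ ζ, a = D ∨ a < D := fun ζ h1 h2 a ha => by
    rcases h1.2.total ha h2 with e | e
    · exact e.eq_or_lt
    · exact Or.inl (hmax a (h1.1 ha) e)
  have cx : ∀ U : Set P, Cx fun ζ => Ch S ζ ∧ ¬ (D ∈ ζ ∧ ∃ c ∈ U, c ∈ ζ) := fun U =>
    (cx_Ch S).and fun ζ ζ' a h ⟨c, d, e, f⟩ => h ⟨a c, d, e, a f⟩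
  have key : ∀ n, ∀ U : Set P, U.ncard = n → U ⊆ R → (∀ c ∈ U, ∀ c' ∈ R, c ≤ c' → c' ∈ U) →
      (Nul fun ζ => Ch S ζ ∧ ¬ (D ∈ ζ ∧ ∃ c ∈ U, c ∈ ζ)) → Nul (Ch S) := by
    intro n
    induction n with
    | zero =>
      intro U h1 h2 _ h4
      rw [(ncard_eq_zero (hf.subset fun c hc => (h2 hc).2.1.le)).1 h1] at h4
      exact h4.mono fun ζ a => ⟨a, by simp⟩
    | succ n ih =>
      intro U h1 h2 h3 h4
      have hU : U.Finite := hf.subset fun c hc => (h2 hc).2.1.le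
      obtain ⟨c, hc⟩ := hU.exists_minimal (nonempty_of_ncard_ne_zero (by omega))
      obtain ⟨j, j1, j2, j3⟩ := hj c (h2 hc.1).1 (h2 hc.1).2.1
      have j4 : c ≤ j := j2.1 (by simp)
      have j5 : b ≤ j := j2.1 (by simp)
      have j6 : ∀ a, c ≤ a → b ≤ a → j ≤ a := fun a x y => j2.2 (by rintro _ (rfl | rfl) <;> assumption)
      refine ih (U \ {c}) (by rw [ncard_sdiff_singleton_of_mem hc.1]; omega) (sdiff_subset.trans h2)
        (fun a ha a' ha' l => ⟨h3 a ha.1 a' ha' l, fun e => ha.2 (hc.eq_of_le ha.1 (e ▸ l))⟩)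
        (Nul.move (x := D) (c := c) (v := j) (cx _) j3 (fun e => (h2 hc.1).2.2 (e ▸ j5))
          (fun ζ h5 h6 h7 => ⟨h5.1.insert j1 fun a ha => ?_, ?_⟩) (h4.mono ?_))
      · rcases h5.1.2.total ha h7 with e | e
        · exact Or.inr (e.trans j4)
        · by_cases e' : a = c
          · exact Or.inr (e' ▸ j4)
          rcases lt ζ h5.1 h6 a ha with rfl | l
          · exact Or.inl (j6 _ e hbD.le)
          · exact Or.inl (j6 a e (by_contra fun hn =>
              h5.2 ⟨h6, a, ⟨h3 c hc.1 a ⟨h5.1.1 ha, l, hn⟩ e, e'⟩, ha⟩))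
      · rintro ⟨-, a, a1, rfl | a2⟩
        · exact (h2 a1.1).2.2 j5
        · exact h5.2 ⟨h6, a, a1, a2⟩
      · rintro ζ ⟨⟨a1, a2⟩, a3⟩
        refine ⟨a1, fun ⟨x, a, y, z⟩ => ?_⟩
        by_cases e : a = c
        · exact a3 ⟨x, e ▸ z⟩
        · exact a2 ⟨x, a, ⟨y, e⟩, z⟩
  refine key _ R rfl Subset.rfl (fun _ _ _ h _ => h) (Nul.move (x := D) (c := D) (v := b) (cx R)
    hbD.ne hbD.ne (fun ζ h1 h2 _ => ⟨h1.1.insert hb fun a ha => Or.inl ?_, ?_⟩) (hN.mono ?_))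
  · rcases lt ζ h1.1 h2 a ha with rfl | l
    · exact hbD.le
    · exact by_contra fun hn => h1.2 ⟨h2, a, ⟨h1.1.1 ha, l, hn⟩, ha⟩
  · rintro ⟨-, a, a1, rfl | a2⟩
    · exact a1.2.2 le_rfl
    · exact h1.2 ⟨h2, a, a1, a2⟩
  · rintro ζ ⟨⟨a1, -⟩, a3⟩
    exact ⟨fun a ha => ⟨a1.1 ha, fun e => a3 ⟨e ▸ ha, e ▸ ha⟩⟩, a1.2⟩

theorem nul_single (o : P) {S : Set P} (h : S ⊆ {o}) : Nul (Ch S) := by
  classical
  have h1 : support (Pi.single o 1 : P → ℝ) ⊆ {o} := Pi.support_single_subset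
  refine ⟨⟨Pi.single o 1, fun a => ?_, (finite_singleton o).subset h1, ?_,
    (subsingleton_singleton.anti h1).isChain⟩, ?_⟩
  · by_cases e : a = o <;> simp [e]
  · rw [finsum_eq_single _ o fun a ha => by simp [ha]]; simp
  · have key : ∀ f g : C(Rz (Ch S), Re P), (∀ x, f x = g x) → f.Homotopic g := fun f g e =>
      ContinuousMap.ext e ▸ ContinuousMap.Homotopic.refl f
    refine key _ _ ?_
    rintro ⟨⟨μ, a, b, c, d⟩, e⟩
    have h2 : ∀ x, x ≠ o → μ x = 0 := fun x hx => by_contra fun hn => hx (h (e.1 hn))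
    have c' := c
    rw [finsum_eq_single _ o h2] at c'
    refine Subtype.ext (funext fun x => ?_)
    change μ x = (Pi.single o 1 : P → ℝ) x
    by_cases e : x = o <;> simp [e, c', h2]

namespace Morse

variable {V H : Type} [LinearOrder H] {top : P → V} {ht : V → H} {o : P} (h : Morse top ht o)
include h

theorem nul_sat {S : Set P} (hf : S.Finite) (hl : IsLowerSet S)
    (hs : ∀ a ∈ S, ∀ a', top a' = top a → a' ∈ S) : Nul (Ch S) := by
  induction hn : S.ncard using Nat.strong_induction_on generalizing S with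
  | _ n ih =>
  by_cases h0 : S ⊆ {o}
  · exact nul_single o h0
  obtain ⟨c₀, hc, hm⟩ := exists_max_image (S \ {o}) (fun c => ht (top c)) (hf.subset sdiff_subset)
    (sdiff_nonempty.2 h0)
  obtain ⟨D, b, d1, d2, d3, d4, d5⟩ := h.step c₀ hc.2
  have up : ∀ a c, top a = top c₀ → c ∈ S → a ≤ c → top c = top c₀ := fun a c e1 e2 e3 => by
    rcases h.mono a c e3 with e | e
    · exact e ▸ e1
    · have : c ≠ o := by
        rintro rfl
        exact hc.2 (h.base _ (h.min a e3 ▸ e1.symm))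
      exact absurd (e1 ▸ e) (hm c ⟨e2, this⟩).not_gt
  have hD : D ∈ S := hs c₀ hc.1 D d1
  have h1 : Nul (Ch (S \ {c | top c = top c₀})) := by
    refine ih _ (hn ▸ ncard_lt_ncard ⟨sdiff_subset, fun e => (e hc.1).2 rfl⟩ hf)
      (hf.subset sdiff_subset) (fun a a' l ha => ⟨hl l ha.1, fun e => ha.2 (up a' a e ha.1 l)⟩)
      (fun a ha a' e => ⟨hs a ha.1 a' e, fun e' => ha.2 (e.symm.trans e')⟩) rfl
  have h2 : Nul (Ch (S \ {c | top c = top c₀ ∧ c ≠ D})) := by
    refine Nul.weak (D := D) (b := b) (h.low D) (fun c a l => by_contra fun e =>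
      a.2 ⟨up D c d1 a.1 l, e⟩) ⟨hl d3 hD, fun e => d4 e.1⟩ (d3.lt_of_ne fun e => d4 (e ▸ d1))
      (fun c a l => ?_) (h1.mono fun ζ a => ⟨fun x hx =>
        ⟨(a.1 hx).1.1, fun e => (a.1 hx).1.2 ⟨e, (a.1 hx).2⟩⟩, a.2⟩)
    obtain ⟨j, j1, j2⟩ := d5 c l.le fun e => a.2 ⟨e, l.ne⟩
    exact ⟨j, ⟨hl (j1.2 (by rintro _ (rfl | rfl); exacts [l.le, d3])) hD, fun e => j2 e.1⟩, j1,
      fun e => j2 (e ▸ d1)⟩
  refine Nul.verts (cx_Ch S) (v := D) (R := {c | top c = top c₀ ∧ c ≠ D})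
    ((h.low D).subset fun c a => d2 c a.1) (fun e => e.2 rfl)
    (fun ζ a c b e => a.insert hD fun x hx => Or.inr ?_)
    (h2.mono fun ζ a => ⟨subset_sdiff.2 ⟨a.1.1, a.2⟩, a.1.2⟩)
  rcases a.2.total hx e with l | l
  · exact l.trans (d2 c b.1)
  · exact d2 x (up c x b.1 (a.1 hx) l)

theorem hull [WellFoundedLT H] (c : P) : ∃ S : Set P, S.Finite ∧ IsLowerSet S ∧
    (∀ a ∈ S, ∀ a', top a' = top a → a' ∈ S) ∧ c ∈ S := by
  induction hn : ht (top c) using WellFoundedLT.induction generalizing c with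
  | _ n ih =>
  by_cases h0 : c = o
  · exact ⟨{o}, finite_singleton o, fun a b l e => h.min b (e ▸ l),
      fun a e a' e' => h.base a' (e ▸ e'), h0⟩
  obtain ⟨D, -, d1, d2, -⟩ := h.step c h0
  have h1 := fun c' : {c' // c' ≤ D ∧ top c' ≠ top c} =>
    ih _ (((h.mono _ _ c'.2.1).resolve_left fun e => c'.2.2 (e.trans d1)).trans_eq
      ((congrArg ht d1).trans hn)) c'.1 rfl
  choose T t1 t2 t3 t4 using h1
  have : Finite {c' // c' ≤ D ∧ top c' ≠ top c} := (h.low D).subset fun _ a => a.1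
  refine ⟨Iic D ∪ ⋃ i, T i, (h.low D).union (finite_iUnion t1),
    (isLowerSet_Iic D).union (isLowerSet_iUnion t2), ?_, Or.inl (d2 c rfl)⟩
  rintro a (ha | ha) a' e
  · by_cases e' : top a = top c
    · exact Or.inl (d2 a' (e.trans e'))
    · exact Or.inr (mem_iUnion.2 ⟨⟨a, ha, e'⟩, t3 _ a (t4 _) a' e⟩)
  · obtain ⟨i, hi⟩ := mem_iUnion.1 ha
    exact Or.inr (mem_iUnion.2 ⟨i, t3 i a hi a' e⟩)

theorem nul_fin [WellFoundedLT H] {S : Set P} (hf : S.Finite) : Nul (Ch S) := by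
  choose T t1 t2 t3 t4 using h.hull
  refine (h.nul_sat (S := ⋃ c ∈ S, T c) (hf.biUnion fun c _ => t1 c)
    (isLowerSet_iUnion₂ fun c _ => t2 c) fun a ha a' e => ?_).mono fun ζ a =>
      ⟨fun x hx => mem_biUnion (a.1 hx) (t4 x), a.2⟩
  obtain ⟨c, c1, c2⟩ := mem_iUnion₂.1 ha
  exact mem_biUnion c1 (t3 c a c2 a' e)

/-- compact sets lie in finite subcomplexes -/
theorem fin_of_compact {C : Set (Re P)} (hC : IsCompact C) :
    ∃ S : Set P, S.Finite ∧ C ⊆ Rz (Ch S) := by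
  obtain ⟨T, hT⟩ := hC.elim_finite_subcover (fun a : P => {μ : Re P | μ.1 a ≠ 0})
    (fun a => isOpen_ne_fun (cont_ev a) continuous_const) fun μ _ => by
      by_contra hn
      simp only [mem_iUnion, mem_ofPred_eq, not_exists, not_not] at hn
      have := μ.2.2.2.1
      simp [hn] at this
  refine ⟨⋃ a ∈ T, Iic a ∪ Ici a, T.finite_toSet.biUnion fun a _ => (h.low a).union (h.up a),
    fun μ hμ => ⟨fun x hx => ?_, μ.2.2.2.2⟩⟩
  obtain ⟨a, a1, a2⟩ := mem_iUnion₂.1 (hT hμ)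
  exact mem_biUnion a1 (μ.2.2.2.2.total hx a2)

theorem null [WellFoundedLT H] {Y : Type} [TopologicalSpace Y] [CompactSpace Y] (f : C(Y, Re P)) :
    f.Nullhomotopic := by
  obtain ⟨S, h1, h2⟩ := h.fin_of_compact (isCompact_range f.continuous)
  exact (h.nul_fin h1).comp_left
    ⟨fun y => ⟨f y, h2 (mem_range_self y)⟩, f.continuous.subtype_mk _⟩

end Morse

/-- if all compact pieces contract then all homotopy groups vanish -/
theorem wc_of_null {X : Type} [TopologicalSpace X]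
    (h : ∀ C : Set X, IsCompact C →
      ContinuousMap.Nullhomotopic (⟨Subtype.val, continuous_subtype_val⟩ : C(C, X)))
    (k : ℕ) (x : X) : Subsingleton (HomotopyGroup (Fin k) X x) := by
  let cl : C(ℝ, I) := ⟨projIcc 0 1 zero_le_one, continuous_projIcc⟩
  let φ : C(Fin k → I, I) := ⟨fun u => ∏ i, cl (4 * u i) * cl (4 * (1 - u i)),
    continuous_finsetProd _ fun i _ => by fun_prop⟩
  let sq : C(I × (Fin k → I), Fin k → I) := ⟨fun z i => cl ((1 + z.1) * z.2 i - z.1 / 2), by fun_prop⟩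
  have c0 : ∀ t, t ≤ 0 → cl t = 0 := fun t ht => projIcc_of_le_left zero_le_one ht
  have c1 : ∀ t, 1 ≤ t → cl t = 1 := fun t ht => projIcc_of_right_le zero_le_one ht
  have hφ : ∀ u ∈ Cube.boundary (Fin k), φ u = 0 := fun u ⟨i, hi⟩ =>
    Finset.prod_eq_zero (Finset.mem_univ i) (by rcases hi with e | e <;> simp [e, c0])
  have hs : ∀ s, ∀ u ∈ Cube.boundary (Fin k), sq (s, u) ∈ Cube.boundary (Fin k) :=
    fun s u ⟨i, hi⟩ => ⟨i, hi.imp (fun e => c0 _ (by simp [e]; linarith [s.2.1]))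
      fun e => c1 _ (by simp [e]; linarith [s.2.1])⟩
  have h1 : ∀ u, sq (1, u) ∈ Cube.boundary (Fin k) ∨ φ u = 1 := fun u => by
    by_cases e : ∃ i, (u i : ℝ) ≤ 1 / 4 ∨ 3 / 4 ≤ (u i : ℝ)
    · obtain ⟨i, hi⟩ := e
      exact Or.inl ⟨i, hi.imp (fun e => c0 _ (by simp; linarith)) fun e => c1 _ (by simp; linarith)⟩
    · push Not at e
      refine Or.inr (Finset.prod_eq_one (s := Finset.univ)
        (f := fun i => cl (4 * u i) * cl (4 * (1 - u i))) fun i _ => ?_)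
      rw [c1 _ (by linarith [(e i).1]), c1 _ (by linarith [(e i).2]), one_mul]
  refine ⟨fun a b => Quotient.inductionOn₂ a b fun f g => Quotient.sound ?_⟩
  obtain ⟨y, ⟨H⟩⟩ := h (insert x (range f ∪ range g))
    (((isCompact_range f.1.continuous).union (isCompact_range g.1.continuous)).insert x)
  have key : ∀ (f' : GenLoop (Fin k) X x) (hf : ∀ u, f' u ∈ insert x (range f ∪ range g)),
      f'.1.HomotopicRel ⟨fun u => H (φ u, ⟨x, mem_insert _ _⟩), by fun_prop⟩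
        (Cube.boundary (Fin k)) := fun f' hf => by
    refine ⟨⟨⟨⟨fun z => H (z.1 * φ z.2, ⟨f' (sq z), hf _⟩), H.continuous.comp
      ((continuous_fst.mul (φ.continuous.comp continuous_snd)).prodMk
        ((f'.1.continuous.comp sq.continuous).subtype_mk _))⟩, fun u => ?_, fun u => ?_⟩,
      fun s u hu => ?_⟩⟩
    · have : sq (0, u) = u := funext fun i => by simp [sq, cl]
      simp [this]
    · rcases h1 u with e | e
      · simp [GenLoop.boundary f' _ e]
      · simp [e]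
    · simp [hφ u hu, GenLoop.boundary f' _ (hs s u hu), GenLoop.boundary f' _ hu]
  exact (key f fun u => Or.inr (Or.inl (mem_range_self u))).trans
    (key g fun u => Or.inr (Or.inr (mem_range_self u))).symm

theorem sc_of_wc {X : Type} [TopologicalSpace X] [Nonempty X]
    (h : ∀ (k : ℕ) (x : X), Subsingleton (HomotopyGroup (Fin k) X x)) : SimplyConnectedSpace X := by
  refine simply_connected_iff_loops_nullhomotopic.2 ⟨pathConnectedSpace_iff_zerothHomotopy.2
    ⟨⟨⟦Classical.arbitrary X⟧⟩, ?_⟩, fun x γ => ?_⟩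
  · have := h 0 (Classical.arbitrary X)
    exact (HomotopyGroup.pi0EquivZerothHomotopy (x := Classical.arbitrary X)).symm.subsingleton
  · have := h 1 x
    have h1 : Subsingleton (Path.Homotopic.Quotient x x) :=
      (HomotopyGroup.pi1EquivFundamentalGroup (x := x)).symm.subsingleton
    exact Quotient.eq.1 (h1.elim ⟦γ⟧ ⟦Path.refl x⟧)

namespace Morse

variable {V H : Type} [LinearOrder H] [WellFoundedLT H] {top : P → V} {ht : V → H} {o : P}
  (h : Morse top ht o)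
include h

theorem wc (k : ℕ) (x : Re P) : Subsingleton (HomotopyGroup (Fin k) (Re P) x) :=
  wc_of_null (fun _ hC => by have := isCompact_iff_compactSpace.1 hC; exact h.null _) k x

theorem sc : SimplyConnectedSpace (Re P) := by
  obtain ⟨y, -⟩ := nul_single o (Subset.refl {o})
  have : Nonempty (Re P) := ⟨y⟩
  exact sc_of_wc h.wc

end Morse

end Crest.Agent.N255.Mo

end
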