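import Mathlib

/-!
# Row 255 (helper2): realisation of the order complex of a poset, Morse data
-/

set_option autoImplicit false
open Set Function

noncomputable section

namespace Crest.Agent.N255.Mo

/-- points of the order complex in barycentric coordinates -/
def Re (P : Type) [PartialOrder P] : Type :=
  {μ : P → ℝ // (∀ a, 0 ≤ μ a) ∧ (support μ).Finite ∧ ∑ᶠ a, μ a = 1 ∧ IsChain (· ≤ ·) (support μ)}

instance (P : Type) [PartialOrder P] : TopologicalSpace (Re P) :=
  inferInstanceAs (TopologicalSpace {μ : P → ℝ // (∀ a, 0 ≤ μ a) ∧ (support μ).Finite ∧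
    ∑ᶠ a, μ a = 1 ∧ IsChain (· ≤ ·) (support μ)})

/-- Morse data on a poset of cells: `top c` is the highest vertex of the cell `c`; the cells with
top vertex `p ≠ top o` are faces of one cell `D`, whose other faces can be joined with one of them -/
structure Morse {P V H : Type} [PartialOrder P] [LinearOrder H] (top : P → V) (ht : V → H)
    (o : P) : Prop where
  mono : ∀ a b, a ≤ b → top a = top b ∨ ht (top a) < ht (top b)
  low : ∀ c : P, (Iic c).Finite
  up : ∀ c : P, (Ici c).Finite
  min : ∀ c, c ≤ o → c = o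
  base : ∀ c, top c = top o → c = o
  step : ∀ c₀, c₀ ≠ o → ∃ D b, top D = top c₀ ∧ (∀ c, top c = top c₀ → c ≤ D) ∧ b ≤ D ∧
    top b ≠ top c₀ ∧ ∀ c ≤ D, top c ≠ top c₀ → ∃ j, IsLUB {c, b} j ∧ top j ≠ top c₀

end Crest.Agent.N255.Mo

end
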